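import Crest.Agent.N336.P.RT

/-!
# Row 336: assembly of S0523 from the parts (helper43)
-/

set_option autoImplicit false

namespace Crest.Agent.N336.P

open Crest.MathPhysics.LatticeSpin

/-- Polynomially bounded for `L ≥ 2`. -/
def Pl (f : ℕ → ℕ) : Prop := ∃ e : ℕ, ∀ L, 2 ≤ L → f L ≤ L ^ e

theorem Pl.const (c : ℕ) : Pl fun _ => c :=
  ⟨c, fun _ hL => (Nat.lt_two_pow_self.le).trans (Nat.pow_le_pow_left hL c)⟩

theorem Pl.id : Pl fun L => L := ⟨1, fun _ _ => by simp⟩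

theorem Pl.mul {f g : ℕ → ℕ} (hf : Pl f) (hg : Pl g) : Pl fun L => f L * g L := by
  obtain ⟨a, ha⟩ := hf
  obtain ⟨b, hb⟩ := hg
  exact ⟨a + b, fun L hL => by rw [pow_add]; exact Nat.mul_le_mul (ha L hL) (hb L hL)⟩

theorem Pl.pow {f : ℕ → ℕ} (hf : Pl f) (k : ℕ) : Pl fun L => f L ^ k := by
  obtain ⟨a, ha⟩ := hf
  exact ⟨a * k, fun L hL => by rw [pow_mul]; exact Nat.pow_le_pow_left (ha L hL) k⟩

theorem Pl.add {f g : ℕ → ℕ} (hf : Pl f) (hg : Pl g) : Pl fun L => f L + g L := by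
  obtain ⟨a, ha⟩ := hf
  obtain ⟨b, hb⟩ := hg
  refine ⟨a + b + 1, fun L hL => ?_⟩
  have h1 : L ^ a ≤ L ^ (a + b) := Nat.pow_le_pow_right (by omega) (by omega)
  have h2 : L ^ b ≤ L ^ (a + b) := Nat.pow_le_pow_right (by omega) (by omega)
  have h3 := ha L hL
  have h4 := hb L hL
  show f L + g L ≤ _
  rw [pow_succ]
  nlinarith

theorem exch_mono {Λ : Type} [Fintype Λ] [DecidableEq Λ] {q : ℕ} {Ω : Vec Λ q} {A F : Finset Λ}
    {ε ε' : ℝ} (h : Exch Ω A F ε) (hε : ε ≤ ε') : Exch Ω A F ε' := by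
  obtain ⟨U, h1, h2, h3⟩ := h
  exact ⟨U, h1, h2, h3.trans hε⟩

theorem PatchFam.mono {Λ : Type} [Fintype Λ] [DecidableEq Λ] {q : ℕ} {Ω : Vec Λ q} {B : ℕ}
    {I O : Finset Λ} {ε ε' : ℝ} (h : PatchFam Ω B ε I O) (hε : ε ≤ ε') : PatchFam Ω B ε' I O := by
  obtain ⟨nb, A, a, h1, h2, h3, h4, h5⟩ := h
  exact ⟨nb, A, a, h1, h2, h3, h4, h5.trans hε⟩

theorem net_mono {q : ℕ} {Λ Pa : Type} [Fintype Λ] [DecidableEq Λ] [Fintype Pa] [DecidableEq Pa]
    {φ : Vec Λ q} {n B ℓ : ℕ} {fin : Λ → Pa} {I : ℕ → Finset Pa} {ε ε' : ℝ}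
    (h : Nonempty (Net q Λ Pa φ n B ℓ fin I ε)) (hε : ε ≤ ε') :
    Nonempty (Net q Λ Pa φ n B ℓ fin I ε') := by
  obtain ⟨N⟩ := h
  exact ⟨{ N with close := N.close.trans hε }⟩

/-- The system on the grid. -/
def gridSys {q L : ℕ} {J Δ : ℝ}
    (h : Finset (Fin L × Fin L) → Matrix (Fin L × Fin L → Fin q) (Fin L × Fin L → Fin q) ℂ)
    (hh : IsAdmissibleInteraction (gridGraph L) 1 J h)
    (Ω : EuclideanSpace ℂ (Fin L × Fin L → Fin q)) (E₀ : ℝ)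
    (hΩ : IsGappedGroundVector (∑ X, h X) Ω E₀ Δ) : Sys q 1 J Δ (Fin L × Fin L) where
  pos := gpos L
  inj a b hab := by
    simp only [gpos, Prod.mk.injEq, Nat.cast_inj] at hab
    exact Prod.ext (Fin.ext hab.1) (Fin.ext hab.2)
  G := gridGraph L
  adj x y hxy := by
    rw [gridGraph, SimpleGraph.fromRel_adj] at hxy
    simp only [gpos]
    rcases hxy.2 with h1 | h1
    · exact h1
    · rw [abs_sub_comm ((x.1 : ℕ) : ℤ), abs_sub_comm ((x.2 : ℕ) : ℤ)]; exact h1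
  h := h
  adm := hh
  Ω := Ω
  E := E₀
  gap := hΩ

set_option maxHeartbeats 1600000 in
/-- The statement of S0523 from the parts. -/
theorem s0523_of (hCL : CLStmt) (hRT : RTStmt) (hS : SoundStmt) (hV : VWStmt) (hP : PtStmt)
    (hG : GeoStmt) (q : ℕ) (J Δ : ℝ) (hq : 2 ≤ q) (hJ : 0 < J) (hΔ : 0 < Δ) :
    ∃ C c : ℝ, 0 < C ∧ 0 < c ∧ ∀ L : ℕ, 2 ≤ L →
      ∀ (h : Finset (Fin L × Fin L) →
          Matrix (Fin L × Fin L → Fin q) (Fin L × Fin L → Fin q) ℂ),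
        IsAdmissibleInteraction (gridGraph L) 1 J h →
        ∀ (Ω : EuclideanSpace ℂ (Fin L × Fin L → Fin q)) (E₀ : ℝ),
          IsGappedGroundVector (∑ X, h X) Ω E₀ Δ →
          ∃ D : ℕ, (D : ℝ) ≤ C * (L : ℝ) ^ c ∧
            ∃ T : Fin L × Fin L → Fin q → Fin D → Fin D → Fin D → Fin D → ℂ,
              pepsVector L D q T ≠ 0 ∧ ∃ θ : ℝ,
                ‖((‖pepsVector L D q T‖⁻¹ : ℝ) : ℂ) • pepsVector L D q T
                    - Complex.exp ((θ : ℂ) * Complex.I) • Ω‖ ≤ ((L : ℝ))⁻¹ := by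
  obtain ⟨K, hK, hG⟩ := hG
  obtain ⟨cv, Cv, hcv, hCv, hV⟩ := hV q 1 J Δ K (by omega) hJ hΔ
  obtain ⟨cp, Cp, hcp, hCp, hP⟩ := hP q J Δ (by omega) hJ hΔ
  -- constants
  set M : ℕ := 800 * K ^ 2 + 4 with hM
  set a : ℝ := 3 * Cv + M / cv + M / cp + 2 with ha
  have hMv : 0 ≤ (M : ℝ) / cv := by positivity
  have hMp : 0 ≤ (M : ℝ) / cp := by positivity
  have ha0 : 0 < a := by positivity
  set b : ℕ := ⌈a * (2 + 3 * Cp)⌉₊ with hb
  set L₀ : ℕ := ⌈16 * (K : ℝ) ^ 2 * a ^ 2⌉₊ with hL₀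
  let B' : ℕ → ℕ := fun L => (L ^ b) ^ K * q ^ K
  let X : ℕ → ℕ := fun L => K * L ^ 3 * B' L ^ (2 * K ^ 2) * (q ^ K) ^ K * (100 * L)
  let k : ℕ → ℕ := fun L => 4 * (2 * K) * (X L + 1) ^ 2
  let V : ℕ → ℕ := fun L => (B' L * k L ^ (2 * (2 * K))) ^ 2
  have pB : Pl B' := ((Pl.id.pow b).pow K).mul (Pl.const _)
  have pX : Pl X := ((((Pl.const K).mul (Pl.id.pow 3)).mul (pB.pow _)).mul (Pl.const _)).mul
    ((Pl.const 100).mul Pl.id)
  have pk : Pl k := (Pl.const _).mul ((pX.add (Pl.const 1)).pow 2)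
  have pV : Pl V := (pB.mul (pk.pow _)).pow 2
  obtain ⟨e, he⟩ := (pV.pow K).add (Pl.const (q ^ (L₀ * L₀)))
  refine ⟨1, (e + 1 : ℕ), one_pos, by positivity, fun L hL h hh Ω E₀ hΩ => ?_⟩
  have hL1 : (2 : ℝ) ≤ L := by exact_mod_cast hL
  have hD : ∀ D : ℕ, D ≤ V L ^ K + q ^ (L₀ * L₀) → (D : ℝ) ≤ 1 * (L : ℝ) ^ ((e + 1 : ℕ) : ℝ) := by
    intro D hD
    rw [one_mul, Real.rpow_natCast]
    have : D ≤ L ^ (e + 1) := (hD.trans (he L hL)).trans (Nat.pow_le_pow_right (by omega) (by omega))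
    exact_mod_cast this
  rcases le_or_gt L L₀ with hsm | hbig
  · obtain ⟨T, hT⟩ := peps_all (q := q) (L := L) (by omega) (by omega) Ω
    refine ⟨_, hD _ (le_trans (Nat.pow_le_pow_right (by omega) (Nat.mul_le_mul hsm hsm))
      (Nat.le_add_left _ _)), T, ?_, 0, ?_⟩
    · rw [hT, ← norm_ne_zero_iff, hΩ.1]; exact one_ne_zero
    · rw [hT, hΩ.1]; simp
  -- large `L`
  set s := gridSys h hh Ω E₀ hΩ with hs
  set lg : ℝ := Real.log L with hlg
  have hlg2 : 1 / 2 ≤ lg := by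
    have h1 : Real.log 2 ≤ lg := Real.log_le_log (by norm_num) hL1
    linarith [Real.log_two_gt_d9]
  have hlam : 1 ≤ a * lg := by nlinarith
  obtain ⟨i₀, hi₀, hi₁⟩ := exists_nat_pow_near hlam (one_lt_two (α := ℝ))
  set i₁ := i₀ + 1 with hi
  have hup : (2 : ℝ) ^ i₁ ≤ 2 * (a * lg) := by rw [hi, pow_succ]; linarith
  have hLexp : ∀ r : ℝ, Real.exp (r * lg) = (L : ℝ) ^ r := fun r => by
    rw [Real.rpow_def_of_pos (by linarith), mul_comm]
  set ε : ℝ := Real.exp (-(M * lg)) with hε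
  have hε0 : 0 < ε := Real.exp_pos _
  have hεle : ε * (800 * (K : ℝ) ^ 2 * (L : ℝ) ^ 4) ≤ 1 := by
    have h1 : 800 * K ^ 2 * L ^ 4 ≤ L ^ M := by
      rw [hM, pow_add]
      exact Nat.mul_le_mul_right _ ((Nat.lt_two_pow_self.le).trans (Nat.pow_le_pow_left hL _))
    have h2 : 800 * (K : ℝ) ^ 2 * (L : ℝ) ^ 4 ≤ Real.exp (M * lg) := by
      rw [hLexp, Real.rpow_natCast]; exact_mod_cast h1
    calc _ ≤ ε * Real.exp (M * lg) := by gcongr
      _ = 1 := by rw [hε, ← Real.exp_add]; simp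
  have hKL : K * 2 ^ i₁ ≤ L := by
    have h1 : 16 * (K : ℝ) ^ 2 * a ^ 2 ≤ L := (Nat.le_ceil _).trans (Nat.cast_le.2 hbig.le)
    have h2 : 4 * K * a ≤ Real.sqrt L := Real.le_sqrt_of_sq_le (by nlinarith)
    have h3 : lg ≤ 2 * Real.sqrt L := by
      have h4 : Real.log (Real.sqrt L) ≤ Real.sqrt L - 1 :=
        Real.log_le_sub_one_of_pos (Real.sqrt_pos.2 (by linarith))
      rw [Real.log_sqrt (by linarith)] at h4
      linarith
    have h5 : (K : ℝ) * 2 ^ i₁ ≤ L := by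
      have h6 := Real.mul_self_sqrt (show (0 : ℝ) ≤ L by linarith)
      have hK0 : (0 : ℝ) ≤ K := by positivity
      calc (K : ℝ) * 2 ^ i₁ ≤ K * (2 * (a * (2 * Real.sqrt L))) := by
            gcongr; exact hup.trans (by gcongr)
        _ = 4 * K * a * Real.sqrt L := by ring
        _ ≤ Real.sqrt L * Real.sqrt L := by gcongr
        _ = L := h6
    exact_mod_cast h5
  have hpt : ∀ (i w : ℕ) (x y : ℤ), i ≤ i₁ → w ≤ 30 * 2 ^ i → PatchFam Ω (L ^ b) ε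
      (sq (gpos L) x y w)
      (sq (gpos L) (x - (2 ^ i : ℕ)) (y - (2 ^ i : ℕ)) (w + 2 * (2 ^ i : ℕ))) := by
    intro i w x y hi' hw
    refine (hP _ s (2 ^ i) w (L ^ b) x y (a * lg) Nat.one_le_two_pow hw hlam ?_).mono
      (Real.exp_le_exp.2 ?_)
    · have h1 : ((2 ^ i : ℕ) : ℝ) ≤ 2 * (a * lg) := by
        push_cast
        exact (pow_le_pow_right₀ one_le_two hi').trans hup
      have h2 : 2 * (a * lg) ≤ Real.exp (2 * (a * lg)) := by
        linarith [Real.add_one_le_exp (2 * (a * lg))]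
      calc _ ≤ Real.exp (2 * (a * lg)) * Real.exp (Cp * (2 * (a * lg) + a * lg)) := by
            gcongr; exact h1.trans h2
        _ = Real.exp (a * (2 + 3 * Cp) * lg) := by rw [← Real.exp_add]; ring_nf
        _ ≤ Real.exp (b * lg) := by gcongr; exact Nat.le_ceil _
        _ = _ := by rw [hLexp, Real.rpow_natCast]; push_cast; rfl
    · have h1 : (M : ℝ) ≤ cp * a := by
        have : (M : ℝ) / cp ≤ a := by linarith
        rwa [div_le_iff₀' hcp] at this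
      nlinarith
  have hex : ∀ (ℓ : ℕ) (cn : Cone K ℓ), 2 ^ i₁ ≤ ℓ → Exch Ω (cn.A (gpos L)) (cn.F (gpos L)) ε := by
    intro ℓ cn hℓ
    have h0 : a * lg ≤ ℓ := hi₁.le.trans (by exact_mod_cast hℓ)
    refine exch_mono (hV _ s ℓ cn ?_) (Real.exp_le_exp.2 ?_)
    · have h1 : Real.log ((Fintype.card (Fin L × Fin L) : ℕ) + 2) ≤ 3 * lg := by
        have h2 : ((Fintype.card (Fin L × Fin L) : ℕ) : ℝ) + 2 ≤ (L : ℝ) ^ 3 := by
          simp only [Fintype.card_prod, Fintype.card_fin]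
          push_cast
          nlinarith
        have h3 := Real.log_le_log (by positivity) h2
        rwa [Real.log_pow] at h3
      nlinarith
    · have h1 : (M : ℝ) ≤ cv * a := by
        have : (M : ℝ) / cv ≤ a := by linarith
        rwa [div_le_iff₀' hcv] at this
      nlinarith
  obtain ⟨Pa, _, _, n, fin, I, hn, hplan, hI, hI', hfin, hroutes⟩ :=
    hG L i₁ (fun A F => Exch Ω A F ε) (PatchFam Ω (L ^ b) ε) hKL hpt hex
  have hK1 : (1 : ℝ) ≤ K := by exact_mod_cast hK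
  have hn' : (n : ℝ) ≤ K * (L : ℝ) ^ 3 := by exact_mod_cast hn
  have hL3 : (1 : ℝ) ≤ (L : ℝ) ^ 3 := one_le_pow₀ (by linarith)
  have hnK : 4 * ((n : ℝ) * K) * ε * (200 * L) ≤ 1 := by
    refine le_trans ?_ hεle
    calc _ ≤ 4 * (K * (L : ℝ) ^ 3 * K) * ε * (200 * L) := by gcongr
      _ = _ := by ring
  have hnet := hS q _ Pa Ω (L ^ b) n K K ε fin I hq hΩ.1 (Nat.one_le_pow _ _ (by omega)) hK hε0.le
    (by
      have h1 : ε * (800 * 1 ^ 2 * 1 ^ 4) ≤ ε * (800 * (K : ℝ) ^ 2 * (L : ℝ) ^ 4) := by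
        gcongr; linarith
      have h2 : 0 ≤ 4 * ((n : ℝ) * K) * ε := by positivity
      nlinarith) hplan
  have hL0 : (0 : ℝ) < L := by linarith
  have hqK : ∀ p, q ^ (Finset.univ.filter fun z => fin z = p).card ≤ q ^ K := fun p =>
    Nat.pow_le_pow_right (by omega) (hfin p)
  have hk1 : 4 * (2 * K) ≤ k L := Nat.le_mul_of_pos_right _ (by positivity)
  obtain ⟨Φ, hΦ, hne, θ, hθ⟩ := hCL q _ Pa Ω n (B' L) (2 * K) K (q ^ K) (k L) fin I (1 / (100 * L))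
    hΩ.1 (net_mono hnet (by rw [le_div_iff₀ (by positivity)]; nlinarith)) (by positivity)
    (by rw [div_le_div_iff₀ (by positivity) (by norm_num)]; linarith) hI hI' hqK (by omega) hk1
    (by
      have h1 : Real.sqrt (4 * ((2 * K : ℕ) : ℝ) / (k L : ℕ)) = 1 / ((X L : ℝ) + 1) := by
        rw [Real.sqrt_eq_iff_mul_self_eq (by positivity) (by positivity)]
        simp only [k]
        push_cast
        field_simp
      have h2 : (n : ℝ) * ((B' L : ℕ) : ℝ) ^ (2 * K ^ 2) * ((q ^ K : ℕ) : ℝ) ^ K * (100 * L) ≤ X L := by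
        simp only [X]
        push_cast
        gcongr
      rw [h1, mul_one_div, div_le_div_iff₀ (by positivity) (by positivity)]
      linarith)
  have hB1 : q ^ K ≤ B' L := Nat.le_mul_of_pos_left _ (by positivity)
  have hV1 : q ^ K ≤ V L := by
    have h1 : B' L ≤ B' L * k L ^ (2 * (2 * K)) :=
      Nat.le_mul_of_pos_right _ (pow_pos (by omega) _)
    exact (hB1.trans h1).trans (Nat.le_self_pow two_ne_zero _)
  obtain ⟨T, hT⟩ := hRT q L Pa n K (V L) fin I Φ ((Nat.one_le_pow _ _ (by omega)).trans hV1) hroutes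
    (fun p => (hqK p).trans hV1) hΦ
  refine ⟨V L ^ K, hD _ (Nat.le_add_right _ _), T, hT ▸ hne, θ, ?_⟩
  rw [hT]
  refine hθ.trans (le_of_eq ?_)
  field_simp

end Crest.Agent.N336.P
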