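import Crest.Agent.N336.P.Defs

/-!
# Row 336: patch families for squares, `pt : PatchStmt → AreaStmt → PtStmt` (helper43)
-/

set_option autoImplicit false

namespace Crest.Agent.N336.P

open Crest.MathPhysics.LatticeSpin

section

variable {q R : ℕ} {J Δ : ℝ} {Λ : Type} [Fintype Λ] [DecidableEq Λ]

omit [DecidableEq Λ] in
theorem mem_sq {pos : Λ → ℤ × ℤ} {x y w : ℤ} {a : Λ} :
    a ∈ sq pos x y w ↔ x ≤ (pos a).1 ∧ (pos a).1 < x + w ∧ y ≤ (pos a).2 ∧ (pos a).2 < y + w := by
  simp [sq]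

/-- Two sites of a non-zero term of range one are equal or adjacent. -/
theorem eq_or_adj (s : Sys q 1 J Δ Λ) {X : Finset Λ} (hX : s.h X ≠ 0) {a b : Λ} (ha : a ∈ X)
    (hb : b ∈ X) : a = b ∨ s.G.Adj a b := by
  have h := (s.adm X).2.2.2
  have h1 : X.Nonempty ∧ ∀ x ∈ X, ∀ y ∈ X, s.G.edist x y ≤ (1 : ℕ) := by
    by_contra hn
    exact hX (h hn)
  have h2 : s.G.edist a b ≤ 1 := by simpa using h1.2 a ha b hb
  rcases SimpleGraph.edist_le_one_iff_adj_or_eq.1 h2 with h3 | h3
  · exact Or.inr h3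
  · exact Or.inl h3

/-- For range one, crossing terms are edges of the boundary. -/
theorem cross_le_bd (s : Sys q 1 J Δ Λ) (A : Finset Λ) : s.cross A ≤ s.bd A := by
  classical
  unfold Sys.cross Sys.bd
  refine le_trans (Finset.card_le_card (t := ((A ×ˢ (Finset.univ \ A)).filter
    fun p : Λ × Λ => s.G.Adj p.1 p.2).image fun p => ({p.1, p.2} : Finset Λ)) ?_)
    (le_trans Finset.card_image_le (le_of_eq (by congr)))
  intro X hX
  obtain ⟨h0, ⟨a, ha, haA⟩, ⟨b, hb, hbA⟩⟩ := (Finset.mem_filter.1 hX).2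
  have hab : s.G.Adj a b := by
    rcases eq_or_adj s h0 ha hb with h | h
    · exact absurd (h ▸ haA) hbA
    · exact h
  refine Finset.mem_image.2 ⟨(a, b), Finset.mem_filter.2 ⟨Finset.mem_product.2
    ⟨haA, Finset.mem_sdiff.2 ⟨Finset.mem_univ _, hbA⟩⟩, hab⟩, ?_⟩
  ext z
  simp only [Finset.mem_insert, Finset.mem_singleton]
  constructor
  · rintro (rfl | rfl)
    · exact ha
    · exact hb
  · intro hz
    rcases eq_or_adj s h0 hz ha with h1 | h1
    · exact Or.inl h1
    rcases eq_or_adj s h0 hz hb with h2 | h2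
    · exact Or.inr h2
    exfalso
    have e1 := s.adj _ _ h1
    have e2 := s.adj _ _ h2
    have e3 := s.adj _ _ hab
    rcases abs_cases ((s.pos z).1 - (s.pos a).1) with h3 | h3 <;>
    rcases abs_cases ((s.pos z).2 - (s.pos a).2) with h4 | h4 <;>
    rcases abs_cases ((s.pos z).1 - (s.pos b).1) with h5 | h5 <;>
    rcases abs_cases ((s.pos z).2 - (s.pos b).2) with h6 | h6 <;>
    rcases abs_cases ((s.pos a).1 - (s.pos b).1) with h7 | h7 <;>
    rcases abs_cases ((s.pos a).2 - (s.pos b).2) with h8 | h8 <;> omega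

/-- The boundary of a square of side `w` has at most `4 w` edges. -/
theorem bd_sq_le (s : Sys q R J Δ Λ) (x y : ℤ) (w : ℕ) : s.bd (sq s.pos x y w) ≤ 4 * w := by
  classical
  unfold Sys.bd
  let T : Finset ((ℤ × ℤ) × (ℤ × ℤ)) :=
    ((Finset.Ico y (y + w)).image fun k => ((x, k), (x - 1, k))) ∪
    ((Finset.Ico y (y + w)).image fun k => ((x + w - 1, k), (x + w, k))) ∪
    ((Finset.Ico x (x + w)).image fun k => ((k, y), (k, y - 1))) ∪
    ((Finset.Ico x (x + w)).image fun k => ((k, y + w - 1), (k, y + w)))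
  have hT : T.card ≤ 4 * w := by
    have h1 : (Finset.Ico y (y + w)).card = w := by simp
    have h2 : (Finset.Ico x (x + w)).card = w := by simp
    refine le_trans (Finset.card_union_le _ _) ?_
    refine le_trans (Nat.add_le_add (Finset.card_union_le _ _) Finset.card_image_le) ?_
    refine le_trans (Nat.add_le_add_right (Nat.add_le_add (Finset.card_union_le _ _)
      Finset.card_image_le) _) ?_
    refine le_trans (Nat.add_le_add_right (Nat.add_le_add_right
      (Nat.add_le_add Finset.card_image_le Finset.card_image_le) _) _) ?_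
    rw [h1, h2]; omega
  refine le_trans (Finset.card_le_card_of_injOn (fun p => (s.pos p.1, s.pos p.2)) ?_ ?_) hT
  · intro p hp
    obtain ⟨h1, h2⟩ := Finset.mem_filter.1 (Finset.mem_coe.1 hp)
    obtain ⟨h3, h4⟩ := Finset.mem_product.1 h1
    have h5 := (Finset.mem_sdiff.1 h4).2
    rw [mem_sq] at h3 h5
    have e := s.adj _ _ h2
    beta_reduce
    generalize s.pos p.1 = u at *
    generalize s.pos p.2 = v at *
    obtain ⟨u1, u2⟩ := u
    obtain ⟨v1, v2⟩ := v
    simp only [T, Finset.coe_union, Finset.coe_image, Finset.coe_Ico, Set.mem_union,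
      Set.mem_image, Set.mem_Ico, Prod.mk.injEq] at *
    have e' : (v1 = u1 - 1 ∧ v2 = u2) ∨ (v1 = u1 + 1 ∧ v2 = u2) ∨ (v1 = u1 ∧ v2 = u2 - 1) ∨
        (v1 = u1 ∧ v2 = u2 + 1) := by
      rcases abs_cases (u1 - v1) with h6 | h6 <;> rcases abs_cases (u2 - v2) with h7 | h7 <;> omega
    clear e
    rcases e' with e | e | e | e
    · exact Or.inl (Or.inl (Or.inl ⟨u2, by omega⟩))
    · exact Or.inl (Or.inl (Or.inr ⟨u2, by omega⟩))
    · exact Or.inl (Or.inr ⟨u1, by omega⟩)
    · exact Or.inr ⟨u1, by omega⟩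
  · intro p _ p' _ h
    obtain ⟨h1, h2⟩ := Prod.mk.inj h
    exact Prod.ext (s.inj h1) (s.inj h2)

end

/-- Patch families for squares. -/
theorem pt (hP : PatchStmt) (hA : AreaStmt) : PtStmt := by
  intro q J Δ hq hJ hΔ
  obtain ⟨c, C, hc, hC, hP⟩ := hP q 1 J Δ hq hJ hΔ
  obtain ⟨Ca, hCa, hA⟩ := hA q 1 J Δ hq hJ hΔ
  refine ⟨c * Real.sqrt (1 / 128), C * (128 * Ca + 1), by positivity, by positivity, ?_⟩
  intro Λ _ _ s η w B x y t hη hw ht hB
  let A : Fin η → Finset Λ := fun j =>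
    sq s.pos (x - η + (j : ℕ)) (y - η + (j : ℕ)) ((w + 2 * η - 2 * j : ℕ) : ℤ)
  have hmem : ∀ (j : Fin η) (a : Λ), a ∈ A j ↔ x - η + (j : ℕ) ≤ (s.pos a).1 ∧
      (s.pos a).1 < x + w + η - (j : ℕ) ∧ y - η + (j : ℕ) ≤ (s.pos a).2 ∧
      (s.pos a).2 < y + w + η - (j : ℕ) := by
    intro j a
    have := j.2
    simp only [A, mem_sq]
    omega
  have hbd : ∀ j, s.bd (A j) ≤ 128 * η := fun j =>
    le_trans (bd_sq_le s _ _ _) (by omega)
  have hη' : (1 : ℝ) ≤ η := by exact_mod_cast hη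
  refine (hP Λ s η (128 * η) A (128 * Ca * η) t hη (by omega)
    (by positivity) ht ?_ ?_ (fun j => (cross_le_bd s _).trans (hbd j)) ?_).elim fun nb h => ?_
  rotate_right
  · obtain ⟨j, a, h1, h2, h3, h4⟩ := h
    refine ⟨nb, fun α => A (j α), a, ?_, fun α => ⟨fun z hz => ?_, fun z hz => ?_⟩, h2, h3,
      h4.trans (le_of_eq ?_)⟩
    · have : (nb : ℝ) ≤ B := by
        refine h1.trans (le_trans ?_ hB)
        refine mul_le_mul_of_nonneg_left (Real.exp_le_exp.2 ?_) (by positivity)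
        nlinarith [mul_pos hC hCa, mul_nonneg (mul_pos hC hCa).le (by linarith : (0 : ℝ) ≤ t),
          mul_nonneg hC.le (by linarith : (0 : ℝ) ≤ η)]
      exact_mod_cast this
    · have := (j α).2
      rw [mem_sq] at hz
      rw [hmem]
      omega
    · have := (j α).2
      rw [mem_sq]
      rw [hmem] at hz
      omega
    · have e : ((η : ℝ) / ((128 * η : ℕ) : ℝ)) = 1 / 128 := by
        push_cast
        field_simp
      rw [e]
      ring_nf
  · intro i j hij z hz
    have : (i : ℕ) ≤ j := hij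
    rw [hmem] at hz ⊢
    omega
  · rintro X hX i j hij ⟨a, ha, haj⟩ z hz
    have : (i : ℕ) < j := hij
    rw [hmem] at haj ⊢
    rcases eq_or_adj s hX ha hz with h | h
    · subst h
      omega
    · have e := s.adj _ _ h
      rcases abs_cases ((s.pos a).1 - (s.pos z).1) with h3 | h3 <;>
      rcases abs_cases ((s.pos a).2 - (s.pos z).2) with h4 | h4 <;> omega
  · intro j
    refine (hA Λ s (A j)).trans ?_
    have : (s.bd (A j) : ℝ) ≤ 128 * η := by exact_mod_cast hbd j
    nlinarith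

end Crest.Agent.N336.P
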