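import Crest.Agent.N336.P.Defs

/-!
# Row 336, routing lemma `rt : RTStmt` (helper43)

`route` : a sum over global labels of a product of site tensors, each reading only the labels whose
(connected) route passes through the site, is a PEPS with bond dimension `V ^ κ`.
-/

set_option autoImplicit false

namespace Crest.Agent.N336.P

open Crest.MathPhysics.LatticeSpin

namespace RT

section code

variable {W : Type} [Fintype W] [DecidableEq W] {V κ : ℕ}

/-- Code of the restriction of a labelling to a set of at most `κ` variables. -/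
noncomputable def enc (hV : 1 ≤ V) (S : Finset W) (hS : S.card ≤ κ) (x : W → Fin V) :
    Fin (V ^ κ) :=
  Fin.castLE (Nat.pow_le_pow_right hV hS)
    (Fintype.equivFinOfCardEq (α := ↥S → Fin V) (n := V ^ S.card) (by simp) fun v => x v)

omit [Fintype W] in
theorem enc_eq_iff (hV : 1 ≤ V) (S : Finset W) (hS : S.card ≤ κ) (x x' : W → Fin V) :
    enc hV S hS x = enc hV S hS x' ↔ ∀ v ∈ S, x v = x' v := by
  unfold enc
  rw [(Fin.castLE_injective _).eq_iff, Equiv.apply_eq_iff_eq]
  constructor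
  · intro h v hv
    exact congrFun h ⟨v, hv⟩
  · intro h
    funext v
    exact h v v.2

omit [Fintype W] in
theorem enc_val_of_empty (hV : 1 ≤ V) (S : Finset W) (hS : S.card ≤ κ) (x : W → Fin V)
    (h : S = ∅) : (enc hV S hS x).val = 0 := by
  have h1 : (enc hV S hS x).val < V ^ S.card := by
    unfold enc
    rw [Fin.val_castLE]
    exact Fin.isLt _
  have h2 : V ^ S.card = 1 := by rw [h]; simp
  omega

end code

section grid

variable {L : ℕ} {W : Type} [Fintype W] [DecidableEq W]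

open Classical in
/-- Variables carried by the horizontal bond `k` of row `i`. -/
noncomputable def hS (Rt : W → Finset (Fin L × Fin L)) (i : Fin L) (k : Fin (L + 1)) : Finset W :=
  Finset.univ.filter fun v => ∃ j j' : Fin L, j.succ = k ∧ j'.castSucc = k ∧
    (i, j) ∈ Rt v ∧ (i, j') ∈ Rt v

open Classical in
/-- Variables carried by the vertical bond `k` of column `j`. -/
noncomputable def vS (Rt : W → Finset (Fin L × Fin L)) (k : Fin (L + 1)) (j : Fin L) : Finset W :=
  Finset.univ.filter fun v => ∃ i i' : Fin L, i.succ = k ∧ i'.castSucc = k ∧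
    (i, j) ∈ Rt v ∧ (i', j) ∈ Rt v

variable (Rt : W → Finset (Fin L × Fin L))

omit [DecidableEq W] in
theorem mem_hS {i : Fin L} {k : Fin (L + 1)} {v : W} :
    v ∈ hS Rt i k ↔ ∃ j j' : Fin L, j.succ = k ∧ j'.castSucc = k ∧
      (i, j) ∈ Rt v ∧ (i, j') ∈ Rt v := by
  simp [hS]

omit [DecidableEq W] in
theorem mem_vS {j : Fin L} {k : Fin (L + 1)} {v : W} :
    v ∈ vS Rt k j ↔ ∃ i i' : Fin L, i.succ = k ∧ i'.castSucc = k ∧
      (i, j) ∈ Rt v ∧ (i', j) ∈ Rt v := by
  simp [vS]

omit [DecidableEq W] in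
theorem hS_left {z : Fin L × Fin L} {v : W} (h : v ∈ hS Rt z.1 z.2.castSucc) : z ∈ Rt v := by
  obtain ⟨j, j', -, h2, -, h4⟩ := (mem_hS Rt).1 h
  rw [Fin.castSucc_inj.1 h2] at h4
  exact h4

omit [DecidableEq W] in
theorem hS_right {z : Fin L × Fin L} {v : W} (h : v ∈ hS Rt z.1 z.2.succ) : z ∈ Rt v := by
  obtain ⟨j, j', h1, -, h3, -⟩ := (mem_hS Rt).1 h
  rw [Fin.succ_inj.1 h1] at h3
  exact h3

omit [DecidableEq W] in
theorem vS_up {z : Fin L × Fin L} {v : W} (h : v ∈ vS Rt z.1.castSucc z.2) : z ∈ Rt v := by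
  obtain ⟨j, j', -, h2, -, h4⟩ := (mem_vS Rt).1 h
  rw [Fin.castSucc_inj.1 h2] at h4
  exact h4

omit [DecidableEq W] in
theorem vS_down {z : Fin L × Fin L} {v : W} (h : v ∈ vS Rt z.1.succ z.2) : z ∈ Rt v := by
  obtain ⟨j, j', h1, -, h3, -⟩ := (mem_vS Rt).1 h
  rw [Fin.succ_inj.1 h1] at h3
  exact h3

omit [DecidableEq W] in
theorem hS_zero (i : Fin L) : hS Rt i 0 = ∅ := by
  refine Finset.eq_empty_of_forall_notMem fun v hv => ?_
  obtain ⟨j, j', h1, -⟩ := (mem_hS Rt).1 hv
  exact Fin.succ_ne_zero _ h1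

omit [DecidableEq W] in
theorem hS_last (i : Fin L) : hS Rt i (Fin.last L) = ∅ := by
  refine Finset.eq_empty_of_forall_notMem fun v hv => ?_
  obtain ⟨j, j', -, h2, -⟩ := (mem_hS Rt).1 hv
  exact Fin.castSucc_ne_last _ h2

omit [DecidableEq W] in
theorem vS_zero (i : Fin L) : vS Rt 0 i = ∅ := by
  refine Finset.eq_empty_of_forall_notMem fun v hv => ?_
  obtain ⟨j, j', h1, -⟩ := (mem_vS Rt).1 hv
  exact Fin.succ_ne_zero _ h1

omit [DecidableEq W] in
theorem vS_last (i : Fin L) : vS Rt (Fin.last L) i = ∅ := by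
  refine Finset.eq_empty_of_forall_notMem fun v hv => ?_
  obtain ⟨j, j', -, h2, -⟩ := (mem_vS Rt).1 hv
  exact Fin.castSucc_ne_last _ h2

variable {κ : ℕ}

omit [DecidableEq W] in
theorem card_hS (hc : ∀ z, (Finset.univ.filter fun v => z ∈ Rt v).card ≤ κ) (i : Fin L)
    (k : Fin (L + 1)) : (hS Rt i k).card ≤ κ := by
  induction k using Fin.cases with
  | zero => rw [hS_zero]; simp
  | succ j =>
    refine le_trans (Finset.card_le_card fun v hv => ?_) (hc (i, j))
    exact Finset.mem_filter.2 ⟨Finset.mem_univ _, hS_right Rt (z := (i, j)) hv⟩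

omit [DecidableEq W] in
theorem card_vS (hc : ∀ z, (Finset.univ.filter fun v => z ∈ Rt v).card ≤ κ)
    (k : Fin (L + 1)) (j : Fin L) : (vS Rt k j).card ≤ κ := by
  induction k using Fin.cases with
  | zero => rw [vS_zero]; simp
  | succ i =>
    refine le_trans (Finset.card_le_card fun v hv => ?_) (hc (i, j))
    exact Finset.mem_filter.2 ⟨Finset.mem_univ _, vS_down Rt (z := (i, j)) hv⟩

/-- Adjacent sites of the grid share a bond. -/
theorem adj_cases {z z' : Fin L × Fin L} (h : (gridGraph L).Adj z z') :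
    (z.1 = z'.1 ∧ (z.2.succ = z'.2.castSucc ∨ z'.2.succ = z.2.castSucc)) ∨
      (z.2 = z'.2 ∧ (z.1.succ = z'.1.castSucc ∨ z'.1.succ = z.1.castSucc)) := by
  obtain ⟨a, b⟩ := z
  obtain ⟨c, d⟩ := z'
  rw [gridGraph, SimpleGraph.fromRel_adj] at h
  obtain ⟨-, h⟩ := h
  simp only [Fin.ext_iff, Fin.val_succ, Fin.val_castSucc] at h ⊢
  rcases h with h | h <;>
  · rcases abs_cases ((a : ℤ) - c) with h1 | h1 <;> rcases abs_cases ((b : ℤ) - d) with h2 | h2 <;>
      rcases abs_cases ((c : ℤ) - a) with h3 | h3 <;>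
      rcases abs_cases ((d : ℤ) - b) with h4 | h4 <;> omega

/-- The general routing lemma. -/
theorem route {q V : ℕ} (hV : 1 ≤ V)
    (hconn : ∀ v, ((gridGraph L).induce (Rt v : Set (Fin L × Fin L))).Connected)
    (hc : ∀ z, (Finset.univ.filter fun v => z ∈ Rt v).card ≤ κ)
    (t : Fin L × Fin L → Fin q → (W → Fin V) → ℂ)
    (ht : ∀ z s x x', (∀ v, z ∈ Rt v → x v = x' v) → t z s x = t z s x') :
    ∃ T : Fin L × Fin L → Fin q → Fin (V ^ κ) → Fin (V ^ κ) → Fin (V ^ κ) → Fin (V ^ κ) → ℂ,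
      ∀ σ, pepsVector L (V ^ κ) q T σ = ∑ x : W → Fin V, ∏ z, t z (σ z) x := by
  classical
  set o : Fin V := ⟨0, hV⟩
  let eh : Fin L → Fin (L + 1) → (W → Fin V) → Fin (V ^ κ) := fun i k =>
    enc hV (hS Rt i k) (card_hS Rt hc i k)
  let ev : Fin (L + 1) → Fin L → (W → Fin V) → Fin (V ^ κ) := fun k j =>
    enc hV (vS Rt k j) (card_vS Rt hc k j)
  let C : Fin L × Fin L → Fin (V ^ κ) → Fin (V ^ κ) → Fin (V ^ κ) → Fin (V ^ κ) →
      (W → Fin V) → Prop := fun z l r u d y =>
    (∀ v, z ∉ Rt v → y v = o) ∧ eh z.1 z.2.castSucc y = l ∧ eh z.1 z.2.succ y = r ∧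
      ev z.1.castSucc z.2 y = u ∧ ev z.1.succ z.2 y = d
  refine ⟨fun z s l r u d => ∑ y : W → Fin V, if C z l r u d y then t z s y else 0, fun σ => ?_⟩
  simp only [pepsVector, PiLp.toLp_apply]
  -- rewrite as one sum over triples
  let Bd : (Fin L → Fin (L + 1) → Fin (V ^ κ)) → (Fin (L + 1) → Fin L → Fin (V ^ κ)) → Prop :=
    fun hb vb => (∀ i, (hb i 0).val = 0 ∧ (hb i (Fin.last L)).val = 0) ∧
      (∀ j, (vb 0 j).val = 0 ∧ (vb (Fin.last L) j).val = 0)
  let Ok : ((Fin L → Fin (L + 1) → Fin (V ^ κ)) × (Fin (L + 1) → Fin L → Fin (V ^ κ)) ×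
      (Fin L × Fin L → W → Fin V)) → Prop := fun p =>
    Bd p.1 p.2.1 ∧ ∀ z : Fin L × Fin L, C z (p.1 z.1 z.2.castSucc) (p.1 z.1 z.2.succ)
      (p.2.1 z.1.castSucc z.2) (p.2.1 z.1.succ z.2) (p.2.2 z)
  have h1 : (∑ hb : Fin L → Fin (L + 1) → Fin (V ^ κ), ∑ vb : Fin (L + 1) → Fin L → Fin (V ^ κ),
      if Bd hb vb then ∏ z : Fin L × Fin L, ∑ y : W → Fin V,
        if C z (hb z.1 z.2.castSucc) (hb z.1 z.2.succ) (vb z.1.castSucc z.2) (vb z.1.succ z.2) y
          then t z (σ z) y else 0 else 0) =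
      ∑ p ∈ Finset.univ.filter Ok, ∏ z, t z (σ z) (p.2.2 z) := by
    rw [Finset.sum_filter, Fintype.sum_prod_type]
    refine Finset.sum_congr rfl fun hb _ => ?_
    rw [Fintype.sum_prod_type]
    refine Finset.sum_congr rfl fun vb _ => ?_
    by_cases hB : Bd hb vb
    · rw [if_pos hB, Finset.prod_univ_sum, Fintype.piFinset_univ]
      refine Finset.sum_congr rfl fun Y _ => ?_
      rw [Finset.prod_ite_zero]
      simp only [hB, true_and, Finset.mem_univ, forall_true_left]
    · rw [if_neg hB]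
      refine (Finset.sum_eq_zero fun Y _ => ?_).symm
      rw [if_neg]
      exact fun h => hB h.1
  refine Eq.trans (by congr) (h1.trans ?_)
  -- the bijection
  let res : (W → Fin V) → Fin L × Fin L → W → Fin V := fun x z v => if z ∈ Rt v then x v else o
  have hres : ∀ x z v, z ∈ Rt v → res x z v = x v := fun x z v h => if_pos h
  symm
  refine Finset.sum_bij (fun x _ => (fun i k => eh i k x, fun k j => ev k j x, res x)) ?_ ?_ ?_ ?_
  · intro x _
    refine Finset.mem_filter.2 ⟨Finset.mem_univ _, ⟨fun i => ⟨?_, ?_⟩, fun j => ⟨?_, ?_⟩⟩,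
      fun z => ⟨fun v hv => if_neg hv, ?_, ?_, ?_, ?_⟩⟩
    · exact enc_val_of_empty hV _ (card_hS Rt hc _ _) _ (hS_zero Rt i)
    · exact enc_val_of_empty hV _ (card_hS Rt hc _ _) _ (hS_last Rt i)
    · exact enc_val_of_empty hV _ (card_vS Rt hc _ _) _ (vS_zero Rt j)
    · exact enc_val_of_empty hV _ (card_vS Rt hc _ _) _ (vS_last Rt j)
    · exact (enc_eq_iff hV _ _ _ _).2 fun v hv => hres x z v (hS_left Rt hv)
    · exact (enc_eq_iff hV _ _ _ _).2 fun v hv => hres x z v (hS_right Rt hv)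
    · exact (enc_eq_iff hV _ _ _ _).2 fun v hv => hres x z v (vS_up Rt hv)
    · exact (enc_eq_iff hV _ _ _ _).2 fun v hv => hres x z v (vS_down Rt hv)
  · intro x _ x' _ h
    have h2 : res x = res x' := congrArg (fun p => p.2.2) h
    funext v
    obtain ⟨⟨z, hz⟩⟩ := (hconn v).nonempty
    rw [← hres x z v hz, ← hres x' z v hz, h2]
  · rintro ⟨hb, vb, Y⟩ hp
    obtain ⟨⟨hB1, hB2⟩, hC⟩ := (Finset.mem_filter.1 hp).2
    simp only at hB1 hB2 hC
    have hadj : ∀ v z z', z ∈ Rt v → z' ∈ Rt v → (gridGraph L).Adj z z' → Y z v = Y z' v := by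
      intro v z z' hz hz' ha
      rcases adj_cases ha with ⟨e1, e2 | e2⟩ | ⟨e1, e2 | e2⟩
      · have a1 := (hC z).2.2.1
        have a2 := (hC z').2.1
        rw [← e1, ← e2] at a2
        refine (enc_eq_iff hV _ _ _ _).1 (a1.trans a2.symm) v ((mem_hS Rt).2 ⟨z.2, z'.2, rfl,
          e2.symm, hz, ?_⟩)
        rw [e1]; exact hz'
      · have a1 := (hC z').2.2.1
        have a2 := (hC z).2.1
        rw [e1, ← e2] at a2
        refine ((enc_eq_iff hV _ _ _ _).1 (a1.trans a2.symm) v ((mem_hS Rt).2 ⟨z'.2, z.2, rfl,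
          e2.symm, hz', ?_⟩)).symm
        rw [← e1]; exact hz
      · have a1 := (hC z).2.2.2.2
        have a2 := (hC z').2.2.2.1
        rw [← e1, ← e2] at a2
        refine (enc_eq_iff hV _ _ _ _).1 (a1.trans a2.symm) v ((mem_vS Rt).2 ⟨z.1, z'.1, rfl,
          e2.symm, hz, ?_⟩)
        rw [e1]; exact hz'
      · have a1 := (hC z').2.2.2.2
        have a2 := (hC z).2.2.2.1
        rw [e1, ← e2] at a2
        refine ((enc_eq_iff hV _ _ _ _).1 (a1.trans a2.symm) v ((mem_vS Rt).2 ⟨z'.1, z.1, rfl,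
          e2.symm, hz', ?_⟩)).symm
        rw [← e1]; exact hz
    have hall : ∀ v z z', z ∈ Rt v → z' ∈ Rt v → Y z v = Y z' v := by
      intro v z z' hz hz'
      obtain ⟨w⟩ := (hconn v).preconnected ⟨z, hz⟩ ⟨z', hz'⟩
      have key : ∀ (a b : (Rt v : Set (Fin L × Fin L)))
          (w : ((gridGraph L).induce (Rt v : Set (Fin L × Fin L))).Walk a b),
          Y a v = Y b v := by
        intro a b w
        induction w with
        | nil => rfl
        | cons h _ ih => exact (hadj v _ _ (Subtype.prop _) (Subtype.prop _) h).trans ih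
      exact key _ _ w
    let x : W → Fin V := fun v => Y (hconn v).nonempty.some v
    have hx : ∀ v z, z ∈ Rt v → Y z v = x v := fun v z hz =>
      hall v _ _ hz (Subtype.prop _)
    refine ⟨x, Finset.mem_univ _, Prod.ext ?_ (Prod.ext ?_ ?_)⟩
    · funext i k
      induction k using Fin.cases with
      | zero => exact Fin.ext ((enc_val_of_empty hV _ (card_hS Rt hc _ _) _ (hS_zero Rt i)).trans (hB1 i).1.symm)
      | succ j =>
        refine Eq.trans ?_ (hC (i, j)).2.2.1
        exact (enc_eq_iff hV _ _ _ _).2 fun v hv => (hx v _ (hS_right Rt (z := (i, j)) hv)).symm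
    · funext k j
      induction k using Fin.cases with
      | zero => exact Fin.ext ((enc_val_of_empty hV _ (card_vS Rt hc _ _) _ (vS_zero Rt j)).trans (hB2 j).1.symm)
      | succ i =>
        refine Eq.trans ?_ (hC (i, j)).2.2.2.2
        exact (enc_eq_iff hV _ _ _ _).2 fun v hv => (hx v _ (vS_down Rt (z := (i, j)) hv)).symm
    · funext z v
      by_cases hz : z ∈ Rt v
      · exact (hres x z v hz).trans (hx v z hz).symm
      · exact (if_neg hz).trans ((hC z).1 v hz).symm
  · intro x _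
    exact Finset.prod_congr rfl fun z _ => ht z _ _ _ fun v hv => (hres x z v hv).symm

end grid

end RT

open RT in
/-- Routing lemma. -/
theorem rt : RTStmt := by
  classical
  rintro q L Pa _ _ n κ V fin I Φ hV ⟨r⟩ hq ⟨M, hM, hΦ⟩
  let Im : Type := ↥(Finset.univ.image fin)
  let fi : Fin L × Fin L → Im := fun z => ⟨fin z, Finset.mem_image_of_mem _ (Finset.mem_univ _)⟩
  let Rt : Fin n ⊕ Im → Finset (Fin L × Fin L) := Sum.elim (fun g => r.rg g) fun p => r.rp p.1
  have hcd : ∀ p : Pa, Nonempty (({z // fin z = p} → Fin q) ↪ Fin V) := by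
    intro p
    refine Function.Embedding.nonempty_of_card_le ?_
    rw [Fintype.card_fun, Fintype.card_fin, Fintype.card_fin, Fintype.card_subtype]
    exact hq p
  let cd : Pa → (Fin L × Fin L → Fin q) → Fin V := fun p σ => (hcd p).some fun z => σ z.1
  have cd_iff : ∀ p σ σ', cd p σ = cd p σ' ↔ ∀ z, fin z = p → σ z = σ' z := by
    intro p σ σ'
    constructor
    · intro h z hz
      exact congrFun ((hcd p).some.injective h) ⟨z, hz⟩
    · intro h
      exact congrArg (hcd p).some (funext fun z => h z.1 z.2)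
  let Q : Pa → (Fin n ⊕ Im → Fin V) → (Fin L × Fin L → Fin q) → Prop := fun p x σ =>
    ∀ hp : p ∈ Finset.univ.image fin, cd p σ = x (Sum.inr ⟨p, hp⟩)
  let Bf : Pa → ((Fin L × Fin L → Fin q) → Prop) → (Fin n → Fin V) → ℂ := fun p P x =>
    if h : ∃ σ, P σ then M p h.choose x else 0
  let A : Fin L × Fin L → Fin q → Fin V → ℂ := fun z s c =>
    if ∃ σ, cd (fin z) σ = c ∧ σ z = s then 1 else 0
  let t : Fin L × Fin L → Fin q → (Fin n ⊕ Im → Fin V) → ℂ := fun z s x =>
    A z s (x (Sum.inr (fi z))) *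
      ∏ p ∈ Finset.univ.filter (fun p => r.loc p = z), Bf p (Q p x) fun g => x (Sum.inl g)
  refine (route (κ := κ) (q := q) Rt hV ?_ ?_ t ?_).imp fun T hT => ?_
  rotate_right
  · ext σ
    rw [hT σ, hΦ σ, ← (Equiv.sumArrowEquivProdArrow _ _ _).symm.sum_comp, Fintype.sum_prod_type]
    refine Finset.sum_congr rfl fun x _ => ?_
    have hy : ∀ y : Im → Fin V, (∏ z, A z (σ z) (y (fi z))) =
        if y = fun p => cd p.1 σ then 1 else 0 := by
      intro y
      by_cases hy : y = fun p => cd p.1 σ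
      · rw [if_pos hy]
        refine Finset.prod_eq_one fun z _ => if_pos ⟨σ, ?_, rfl⟩
        rw [hy]
      · rw [if_neg hy]
        by_contra hne
        apply hy
        have hz : ∀ z, ∃ σ', cd (fin z) σ' = y (fi z) ∧ σ' z = σ z := by
          intro z
          by_contra hn
          exact hne (Finset.prod_eq_zero (Finset.mem_univ z) (if_neg hn))
        funext p
        obtain ⟨z₀, -, h0⟩ := Finset.mem_image.1 p.2
        have hp : p = fi z₀ := Subtype.ext h0.symm
        subst hp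
        obtain ⟨σ₀, h1, -⟩ := hz z₀
        rw [← h1]
        refine (cd_iff _ _ _).2 fun z hz' => ?_
        obtain ⟨σ₁, h3, h4⟩ := hz z
        have e : fi z = fi z₀ := Subtype.ext hz'
        rw [e, ← h1] at h3
        change fin z = fin z₀ at hz'
        rw [hz'] at h3
        rw [← h4]
        exact ((cd_iff _ _ _).1 h3 z hz').symm
    rw [Finset.sum_eq_single (fun p : Im => cd p.1 σ)]
    · simp only [t, Finset.prod_mul_distrib, Equiv.sumArrowEquivProdArrow_symm_apply_inr,
        Equiv.sumArrowEquivProdArrow_symm_apply_inl]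
      rw [hy (fun p : Im => cd p.1 σ), if_pos rfl, one_mul, Finset.prod_fiberwise]
      refine Finset.prod_congr rfl fun p _ => ?_
      have hex : ∃ σ', Q p ((Equiv.sumArrowEquivProdArrow (Fin n) Im (Fin V)).symm
          (x, fun p : Im => cd p.1 σ)) σ' := ⟨σ, fun hp => rfl⟩
      simp only [Bf]
      rw [dif_pos hex]
      refine hM p _ _ _ _ (fun z hz => ?_) fun g _ => rfl
      have hp : p ∈ Finset.univ.image fin := Finset.mem_image.2 ⟨z, Finset.mem_univ _, hz⟩
      exact (cd_iff _ _ _).1 (hex.choose_spec hp) z hz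
    · intro y _ hne
      simp only [t, Finset.prod_mul_distrib, Equiv.sumArrowEquivProdArrow_symm_apply_inr]
      rw [hy y, if_neg hne, zero_mul]
    · intro h
      exact absurd (Finset.mem_univ _) h
  · rintro (g | p)
    · exact r.conn_g g g.2
    · obtain ⟨z, -, hz⟩ := Finset.mem_image.1 p.2
      have := r.conn_p z
      rw [hz] at this
      exact this
  · intro z
    refine le_trans (le_of_eq ?_) (r.cong z)
    rw [Finset.card_filter, Fintype.sum_sum_type, Finset.card_filter, Finset.card_filter,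
      ← Fin.sum_univ_eq_sum_range (fun t => if z ∈ r.rg t then 1 else 0) n,
      ← Finset.sum_coe_sort (Finset.univ.image fin)]
    rfl
  · intro z s x x' h
    have e1 : x (Sum.inr (fi z)) = x' (Sum.inr (fi z)) := h _ (r.mem_fin z)
    simp only [t]
    rw [e1]
    congr 1
    refine Finset.prod_congr rfl fun p hp => ?_
    have hl : r.loc p = z := (Finset.mem_filter.1 hp).2
    have e2 : Q p x = Q p x' := by
      funext σ
      refine propext (forall_congr' fun hp' => ?_)
      obtain ⟨z', -, hz'⟩ := Finset.mem_image.1 hp'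
      have : x (Sum.inr ⟨p, hp'⟩) = x' (Sum.inr ⟨p, hp'⟩) := by
        refine h _ ?_
        have := r.mem_p z'
        rw [hz', hl] at this
        exact this
      rw [this]
    rw [e2]
    simp only [Bf]
    split_ifs with hex
    · refine hM p _ _ _ _ (fun _ _ => rfl) fun g hg => h _ ?_
      have := r.mem_g g g.2 p hg
      rw [hl] at this
      exact this
    · rfl

/-- The grid graph is connected. -/
theorem grid_connected {L : ℕ} (hL : 1 ≤ L) : (gridGraph L).Connected := by
  have : Nonempty (Fin L × Fin L) := ⟨(⟨0, hL⟩, ⟨0, hL⟩)⟩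
  have hrow : ∀ (i : Fin L) (j : ℕ) (hj : j < L), (gridGraph L).Reachable (i, ⟨0, hL⟩) (i, ⟨j, hj⟩) := by
    intro i j
    induction j with
    | zero => intro _; rfl
    | succ j ih =>
      intro hj
      refine (ih (by omega)).trans (SimpleGraph.Adj.reachable ?_)
      rw [gridGraph, SimpleGraph.fromRel_adj]
      refine ⟨by simp [Fin.ext_iff], Or.inl ?_⟩
      simp
  have hcol : ∀ (j : Fin L) (i : ℕ) (hi : i < L), (gridGraph L).Reachable (⟨0, hL⟩, j) (⟨i, hi⟩, j) := by
    intro j i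
    induction i with
    | zero => intro _; rfl
    | succ i ih =>
      intro hi
      refine (ih (by omega)).trans (SimpleGraph.Adj.reachable ?_)
      rw [gridGraph, SimpleGraph.fromRel_adj]
      refine ⟨by simp [Fin.ext_iff], Or.inl ?_⟩
      simp
  have h0 : ∀ z : Fin L × Fin L, (gridGraph L).Reachable (⟨0, hL⟩, ⟨0, hL⟩) z := fun z =>
    (hcol ⟨0, hL⟩ z.1 z.1.2).trans (hrow z.1 z.2 z.2.2)
  exact ⟨fun a b => (h0 a).symm.trans (h0 b)⟩

/-- Every vector on the `L × L` grid is a PEPS of bond dimension `q ^ (L * L)`. -/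
theorem peps_all {q L : ℕ} (hq : 1 ≤ q) (hL : 1 ≤ L) (Φ : Vec (Fin L × Fin L) q) :
    ∃ T : Fin L × Fin L → Fin q → Fin (q ^ (L * L)) → Fin (q ^ (L * L)) → Fin (q ^ (L * L)) →
      Fin (q ^ (L * L)) → ℂ, pepsVector L (q ^ (L * L)) q T = Φ := by
  have hc : ((gridGraph L).induce ((Finset.univ : Finset (Fin L × Fin L)) :
      Set (Fin L × Fin L))).Connected := by
    rw [Finset.coe_univ]
    exact (SimpleGraph.induceUnivIso _).connected_iff.2 (grid_connected hL)
  have h := rt q L Unit 0 1 (q ^ (L * L)) (fun _ => ()) (fun _ => ∅) Φ (Nat.one_le_pow _ _ hq)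
    ⟨{ loc := fun _ => (⟨0, hL⟩, ⟨0, hL⟩), rg := fun _ => ∅, rp := fun _ => Finset.univ,
       conn_g := fun t ht => absurd ht (Nat.not_lt_zero _), conn_p := fun _ => hc,
       mem_g := fun t ht => absurd ht (Nat.not_lt_zero _), mem_p := fun _ => Finset.mem_univ _,
       mem_fin := fun _ => Finset.mem_univ _,
       cong := fun z => by
        rw [Finset.range_zero, Finset.filter_empty, Finset.card_empty, zero_add]
        exact le_trans (Finset.card_le_univ _) (by simp) }⟩
    (fun p => by simp) ⟨fun _ σ _ => Φ σ, fun p σ σ' x x' h _ => by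
      rw [show σ = σ' from funext fun z => h z rfl], fun σ => by simp⟩
  rw [pow_one] at h
  exact h

end Crest.Agent.N336.P
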